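import Vale.Agent.P251.St.Chrom

/-!
# P241, statement layer: p-localisation and abstract models of genuine `G`-spectra

* `PLocal p E` : every integer prime to `p` is invertible on `E`.
* `IsPLoc p f` : `f : A ⟶ B` is the `p`-localisation of `A` (universal property).
* `isIso_tenHom_of_isPLoc` : a `p`-local `E` does not see `p`-localisation.
* `acyclic_iff_of_isPLoc` : the two spectra have the same `E`-acyclicity.
-/

open CategoryTheory MonoidalCategory Limits Pretriangulated

namespace Vale.Agent.P241.H831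

open Vale.Agent.P251.St Vale.Agent.P251.St.SHCat

variable {T : SHCat}

/-- `B` is `p`-local: every integer prime to `p` is invertible on `B`. -/
def PLocal (p : ℕ) (B : T.C) : Prop :=
  ∀ m : ℕ, m.Coprime p → IsIso (zmul (m : ℤ) (ident B))

/-- `f : A ⟶ B` is the `p`-localisation of `A`: `B` is `p`-local and every morphism from `A` to a
`p`-local object factors uniquely through `f`. -/
def IsPLoc (p : ℕ) {A B : T.C} (f : Hom A B) : Prop :=
  PLocal p B ∧ ∀ C : T.C, PLocal p C → ∀ g : Hom A C, ∃! h : Hom B C, comp f h = g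

theorem isIso_zmul_iff (m : ℤ) (B : T.C) : IsIso (zmul m (ident B)) ↔
    ∀ X : T.C, Function.Bijective (fun f : Hom X B => m • f) := by
  have h0 : ∀ (X : T.C) (f : Hom X B), m • f = f ≫ zmul m (ident B) := by
    intro X f
    simp [zmul]
  constructor
  · intro h X
    have : (fun f : Hom X B => m • f) = fun f => f ≫ zmul m (ident B) := funext (h0 X)
    rw [this]
    refine ⟨fun a b hab => (cancel_mono (zmul m (ident B))).1 hab,
      fun g => ⟨g ≫ inv (zmul m (ident B)), ?_⟩⟩
    show (g ≫ inv (zmul m (ident B))) ≫ zmul m (ident B) = g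
    rw [Category.assoc, IsIso.inv_hom_id, Category.comp_id]
  · intro h
    obtain ⟨g, hg⟩ := (h B).2 (𝟙 B)
    dsimp at hg
    refine ⟨g, ?_, ?_⟩
    · apply (h B).1
      dsimp
      rw [zmul, Preadditive.zsmul_comp, Category.id_comp, hg]
    · rw [← h0, hg]

theorem bij_ten (m : ℤ) {E : T.C} (hE : IsIso (zmul m (ident E))) (X C : T.C) :
    Function.Bijective (fun f : Hom (ten E X) C => m • f) := by
  have h0 : (fun f : Hom (ten E X) C => m • f) = fun f => (zmul m (ident E) ▷ X) ≫ f := by
    funext f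
    have h1 : zmul m (ident E) ▷ X = m • 𝟙 (E ⊗ X) := by
      simp only [zmul, ident]
      rw [show (m • 𝟙 E) ▷ X = m • (𝟙 E ▷ X) from
        ((tensoringRight T.C).obj X).map_zsmul]
      simp
    rw [h1, Preadditive.zsmul_comp, Category.id_comp]
  rw [h0]
  refine ⟨fun a b hab => (cancel_epi (zmul m (ident E) ▷ X)).1 hab,
    fun g => ⟨inv (zmul m (ident E) ▷ X) ≫ g, ?_⟩⟩
  show (zmul m (ident E) ▷ X) ≫ inv (zmul m (ident E) ▷ X) ≫ g = g
  rw [← Category.assoc, IsIso.hom_inv_id, Category.id_comp]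

theorem uncurry_zsmul (m : ℤ) {E X C : T.C} (f : Hom X ((ihom E).obj C)) :
    MonoidalClosed.uncurry (m • f) = m • (MonoidalClosed.uncurry f : E ⊗ X ⟶ C) := by
  rw [MonoidalClosed.uncurry_eq, MonoidalClosed.uncurry_eq]
  rw [show E ◁ (m • f) = m • (E ◁ f) from ((tensoringLeft T.C).obj E).map_zsmul,
    Preadditive.zsmul_comp]

theorem pLocal_ihom (p : ℕ) {E : T.C} (hE : PLocal p E) (C : T.C) :
    PLocal p ((ihom E).obj C) := by
  intro m hm
  rw [isIso_zmul_iff]
  intro X
  have hb := bij_ten (m : ℤ) (hE m hm) X C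
  constructor
  · intro a b hab
    apply MonoidalClosed.uncurry_injective
    apply hb.1
    dsimp at hab ⊢
    rw [← uncurry_zsmul, ← uncurry_zsmul, hab]
  · intro g
    obtain ⟨f, hf⟩ := hb.2 (MonoidalClosed.uncurry g)
    refine ⟨MonoidalClosed.curry f, ?_⟩
    apply MonoidalClosed.uncurry_injective
    dsimp at hf ⊢
    rw [uncurry_zsmul, MonoidalClosed.uncurry_curry, hf]

/-- A `p`-local spectrum does not see `p`-localisation. -/
theorem isIso_tenHom_of_isPLoc (p : ℕ) {A B E : T.C} (hE : PLocal p E) {f : Hom A B}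
    (hf : IsPLoc p f) : IsIso (tenHom (ident E) f) := by
  have h0 : tenHom (ident E) f = E ◁ f := by simp [tenHom, ident]
  rw [h0]
  have hbij : ∀ C : T.C, Function.Bijective (fun h : Hom (ten E B) C => (E ◁ f) ≫ h) := by
    intro C
    have hu := hf.2 ((ihom E).obj C) (pLocal_ihom p hE C)
    constructor
    · intro a b hab
      apply MonoidalClosed.curry_injective
      refine (hu (MonoidalClosed.curry ((E ◁ f) ≫ a))).unique ?_ ?_
      · rw [MonoidalClosed.curry_natural_left]
      · dsimp at hab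
        rw [hab, MonoidalClosed.curry_natural_left]
    · intro g
      obtain ⟨h, hh, -⟩ := hu (MonoidalClosed.curry g)
      refine ⟨MonoidalClosed.uncurry h, ?_⟩
      dsimp
      rw [← MonoidalClosed.uncurry_natural_left]
      exact (congrArg MonoidalClosed.uncurry hh).trans (MonoidalClosed.uncurry_curry g)
  obtain ⟨g, hg⟩ := (hbij (E ⊗ A)).2 (𝟙 (E ⊗ A))
  dsimp at hg
  refine ⟨g, hg, ?_⟩
  apply (hbij (E ⊗ B)).1
  dsimp
  rw [← Category.assoc, hg, Category.id_comp, Category.comp_id]

theorem acyclic_iff_of_isIso {E A B : T.C} (f : Hom A B) (hf : IsIso (tenHom (ident E) f)) :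
    Acyclic E A ↔ Acyclic E B := by
  have e := asIso (tenHom (ident E) f)
  constructor
  · intro h
    have : IsZero (E ⊗ A) := (IsZero.iff_id_eq_zero _).2 h
    exact (IsZero.iff_id_eq_zero _).1 (this.of_iso e.symm)
  · intro h
    have : IsZero (E ⊗ B) := (IsZero.iff_id_eq_zero _).2 h
    exact (IsZero.iff_id_eq_zero _).1 (this.of_iso e)

theorem acyclic_iff_of_isPLoc (p : ℕ) {A B E : T.C} (hE : PLocal p E) {f : Hom A B}
    (hf : IsPLoc p f) : Acyclic E A ↔ Acyclic E B :=
  acyclic_iff_of_isIso f (isIso_tenHom_of_isPLoc p hE hf)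

end Vale.Agent.P241.H831

namespace Vale.Agent.P241.H831

open Vale.Agent.P251.St Vale.Agent.P251.St.SHCat

variable {T : SHCat}

/-- An integer which is invertible on the unit of a (not necessarily commutative) ring object is
invertible on the ring object. Only a unital multiplication is used. -/
theorem isIso_of_unit {R : T.C} (u : Hom T.one R) (mu : Hom (ten R R) R)
    (hu : (u ▷ R) ≫ mu = (λ_ R).hom) (m : ℤ) (v : Hom T.one R) (hv : m • v = u) :
    IsIso (zmul m (ident R)) := by
  have h1 : m • ((λ_ R).inv ≫ (v ▷ R) ≫ mu) = 𝟙 R := by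
    rw [← Preadditive.comp_zsmul, ← Preadditive.zsmul_comp]
    have h2 : m • (v ▷ R) = u ▷ R := by
      rw [← hv]
      exact (((tensoringRight T.C).obj R).map_zsmul).symm
    rw [h2, hu, Iso.inv_hom_id]
  refine ⟨(λ_ R).inv ≫ (v ▷ R) ≫ mu, ?_, ?_⟩
  · rw [zmul, ident, Preadditive.zsmul_comp, Category.id_comp, h1]
  · rw [zmul, ident, Preadditive.comp_zsmul, Category.comp_id, h1]

theorem pLocal_of_char (p : ℕ) {R : T.C} (u : Hom T.one R) (mu : Hom (ten R R) R)
    (hu : (u ▷ R) ≫ mu = (λ_ R).hom) (hp : (p : ℤ) • u = 0) : PLocal p R := by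
  intro m hm
  have hb := Nat.gcd_eq_gcd_ab m p
  rw [hm.gcd_eq_one] at hb
  refine isIso_of_unit u mu hu m (Nat.gcdA m p • u) ?_
  have h1 : (1 : ℤ) • u = u := one_zsmul u
  have h2 : (1 : ℤ) = m * Nat.gcdA m p + Nat.gcdB m p * p := by
    rw [mul_comm (Nat.gcdB m p)]; exact_mod_cast hb
  rw [smul_smul]
  rw [h2, add_smul, mul_smul (Nat.gcdB m p), hp, smul_zero, add_zero] at h1
  exact h1

theorem pLocal_of_div (p : ℕ) {R : T.C} (hp : p ≠ 1) (u : Hom T.one R) (mu : Hom (ten R R) R)
    (hu : (u ▷ R) ≫ mu = (λ_ R).hom)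
    (hd : ∀ m : ℤ, m ≠ 0 → ∃ v : Hom T.one R, m • v = u) : PLocal p R := by
  intro m hm
  have h0 : (m : ℤ) ≠ 0 := by
    rintro h
    have : m = 0 := by exact_mod_cast h
    subst this
    exact hp (by simpa using hm)
  obtain ⟨v, hv⟩ := hd m h0
  exact isIso_of_unit u mu hu m v hv

/-- The part of the theory of `p`-local genuine `G`-spectra which enters the definition of the
chromatic fixed-point loss. `GS` is the collection of finite pointed `G`-spaces, `fix X H` the
space `X^H`. -/
structure GenuineModel (S : Susp T) (p : ℕ) (G : Type) [Group G] (GS : Type 1)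
    (fix : GS → Subgroup G → Space) where
  /-- the finite `p`-local genuine `G`-spectra -/
  Fin : Type 1
  /-- the geometric fixed points -/
  Phi : Subgroup G → Fin → T.C
  /-- the `p`-localised suspension spectrum of a finite pointed `G`-space -/
  susp : GS → Fin
  /-- its geometric fixed points: the `p`-localisation of the suspension spectrum of `X^H` -/
  phi_susp : ∀ (X : GS) (H : Subgroup G), ∃ f : Hom (S.obj (fix X H)) (Phi H (susp X)), IsPLoc p f

/-- Space-level examples give examples in every model of genuine `G`-spectra. -/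
theorem genuine_of_space {S : Susp T} {p : ℕ} {G : Type} [Group G] {GS : Type 1}
    {fix : GS → Subgroup G → Space} (M : GenuineModel S p G GS fix) {E F : T.C}
    (hE : PLocal p E) (hF : PLocal p F) (H : Subgroup G)
    (hX : ∃ X : GS, Acyclic E (S.obj (fix X H)) ∧ ¬ Acyclic F (S.obj (fix X ⊤))) :
    ¬ ∀ X : M.Fin, Acyclic E (M.Phi H X) → Acyclic F (M.Phi ⊤ X) := by
  obtain ⟨X, h1, h2⟩ := hX
  intro h
  obtain ⟨f, hf⟩ := M.phi_susp X H
  obtain ⟨g, hg⟩ := M.phi_susp X ⊤
  exact h2 ((acyclic_iff_of_isPLoc p hF hg).2 (h _ ((acyclic_iff_of_isPLoc p hE hf).1 h1)))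

end Vale.Agent.P241.H831
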